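import Vale.Agent.P237.Quant.TailData.N76.tailN76N0Part0
import Vale.Agent.P237.Quant.TailData.N76.tailN76N0Part1
import Vale.Agent.P237.Quant.TailData.N76.tailN76N0Part2
import Vale.Agent.P237.Quant.TailData.N76.tailN76N0Part3
import Vale.Agent.P237.Quant.TailData.N76.tailN76N0Part4
import Vale.Agent.P237.Quant.TailData.N76.tailN76N0Part5
import Vale.Agent.P237.Quant.TailData.N76.tailN76N0Part6

/-!
Tail calibration tailN76N0 in dimension 76. The check. Generated data, checked by the kernel.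
-/

set_option maxRecDepth 100000
set_option linter.all false

namespace Vale.Agent.P237.Quant.TailData

open TailCert


/-- The calibration. -/
noncomputable def tailN76N0 : Cfg :=
  tailN76N0Base.withIvals (List.flatten [tailN76N0L0, tailN76N0L1, tailN76N0L2, tailN76N0L3, tailN76N0L4, tailN76N0L5, tailN76N0L6, tailN76N0L7, tailN76N0L8, tailN76N0L9, tailN76N0L10, tailN76N0L11, tailN76N0L12, tailN76N0L13, tailN76N0L14, tailN76N0L15, tailN76N0L16, tailN76N0L17, tailN76N0L18, tailN76N0L19, tailN76N0L20, tailN76N0L21, tailN76N0L22, tailN76N0L23, tailN76N0L24])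

theorem tailN76N0_parts : [tailN76N0L0, tailN76N0L1, tailN76N0L2, tailN76N0L3, tailN76N0L4, tailN76N0L5, tailN76N0L6, tailN76N0L7, tailN76N0L8, tailN76N0L9, tailN76N0L10, tailN76N0L11, tailN76N0L12, tailN76N0L13, tailN76N0L14, tailN76N0L15, tailN76N0L16, tailN76N0L17, tailN76N0L18, tailN76N0L19, tailN76N0L20, tailN76N0L21, tailN76N0L22, tailN76N0L23, tailN76N0L24].Forall fun l => tailN76N0Base.partUsed tailN76N0Used l = true := by
  simp only [List.forall_cons, List.Forall]
  exact ⟨tailN76N0L0_ok, tailN76N0L1_ok, tailN76N0L2_ok, tailN76N0L3_ok, tailN76N0L4_ok, tailN76N0L5_ok, tailN76N0L6_ok, tailN76N0L7_ok, tailN76N0L8_ok, tailN76N0L9_ok, tailN76N0L10_ok, tailN76N0L11_ok, tailN76N0L12_ok, tailN76N0L13_ok, tailN76N0L14_ok, tailN76N0L15_ok, tailN76N0L16_ok, tailN76N0L17_ok, tailN76N0L18_ok, tailN76N0L19_ok, tailN76N0L20_ok, tailN76N0L21_ok, tailN76N0L22_ok, tailN76N0L23_ok, tailN76N0L24_ok⟩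

theorem tailN76N0_check : tailN76N0.check = true :=
  Cfg.check_of_parts (by decide +kernel) tailN76N0_parts

end Vale.Agent.P237.Quant.TailData
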